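import Vale.Agent.P139Z.ODefs

/-! Hardy inequalities on intervals and half-lines. -/

open Set Filter Topology MeasureTheory Complex
open scoped NNReal ENNReal ComplexConjugate ContDiff

namespace Vale.Agent.P139Z.OCalc

/-- The finite form, with a weight `w` such that `(x w)' = q w`. -/
theorem hardy_fin {a b q : ℝ} (hab : a ≤ b) {w : ℝ → ℝ} {h h' : ℝ → ℂ}
    (hw : ∀ x ∈ Icc a b, HasDerivAt (fun x => x * w x) (q * w x) x)
    (hwc : ContinuousOn w (Icc a b)) (hw0 : ∀ x ∈ Icc a b, 0 ≤ w x)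
    (hd : ∀ x ∈ Icc a b, HasDerivAt h (h' x) x) (hc : ContinuousOn h' (Icc a b)) :
    q ^ 2 / 2 * ∫ x in a..b, w x * ‖h x‖ ^ 2
      ≤ q * (b * w b * ‖h b‖ ^ 2 - a * w a * ‖h a‖ ^ 2)
        + 2 * ∫ x in a..b, x ^ 2 * w x * ‖h' x‖ ^ 2 := by
  have hh : ContinuousOn h (Icc a b) := fun x hx => (hd x hx).continuousAt.continuousWithinAt
  have hφ : ∀ x ∈ uIcc a b, HasDerivAt (fun x => x * w x * ‖h x‖ ^ 2)
      (q * w x * ‖h x‖ ^ 2 + x * w x * (2 * inner ℝ (h x) (h' x))) x := by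
    intro x hx
    rw [uIcc_of_le hab] at hx
    exact (hw x hx).mul (hd x hx).norm_sq
  have c1 : ContinuousOn (fun x => w x * ‖h x‖ ^ 2) (Icc a b) := hwc.mul (hh.norm.pow 2)
  have c2 : ContinuousOn (fun x => x ^ 2 * w x * ‖h' x‖ ^ 2) (Icc a b) :=
    ((continuousOn_id.pow 2).mul hwc).mul (hc.norm.pow 2)
  have c3 : ContinuousOn (fun x => q * w x * ‖h x‖ ^ 2 + x * w x * (2 * inner ℝ (h x) (h' x)))
      (Icc a b) :=
    ((continuousOn_const.mul hwc).mul (hh.norm.pow 2)).add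
      ((continuousOn_id.mul hwc).mul (continuousOn_const.mul (hh.inner hc)))
  have i1 := c1.intervalIntegrable_of_Icc (μ := volume) hab
  have i2 := c2.intervalIntegrable_of_Icc (μ := volume) hab
  have i3 := c3.intervalIntegrable_of_Icc (μ := volume) hab
  rw [← intervalIntegral.integral_eq_sub_of_hasDerivAt hφ i3, ← intervalIntegral.integral_const_mul,
    ← intervalIntegral.integral_const_mul, ← intervalIntegral.integral_const_mul,
    ← intervalIntegral.integral_add (i3.const_mul q) (i2.const_mul 2)]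
  refine intervalIntegral.integral_mono_on hab (i1.const_mul _)
    ((i3.const_mul q).add (i2.const_mul 2)) fun x hx => ?_
  have e := norm_add_sq_real ((q / 2) • h x) (x • h' x)
  rw [norm_smul, norm_smul, inner_smul_left, inner_smul_right, mul_pow, mul_pow,
    Real.norm_eq_abs, Real.norm_eq_abs, sq_abs, sq_abs] at e
  simp only [conj_trivial] at e
  have := mul_nonneg (hw0 x hx) (sq_nonneg ‖(q / 2) • h x + x • h' x‖)
  rw [e] at this
  nlinarith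

theorem hardy_rpow {a p : ℝ} (ha : 0 < a) {h h' : ℝ → ℂ}
    (hd : ∀ x : ℝ, a ≤ x → HasDerivAt h (h' x) x) (hc : ContinuousOn h' (Ici a))
    (hi : IntegrableOn (fun x : ℝ => x ^ p * ‖h' x‖ ^ 2) (Ioi a)) {b : ℝ} (hab : a ≤ b) :
    (p - 1) ^ 2 / 2 * ∫ x in a..b, x ^ (p - 2) * ‖h x‖ ^ 2
      ≤ (p - 1) * (b ^ (p - 1) * ‖h b‖ ^ 2 - a ^ (p - 1) * ‖h a‖ ^ 2)
        + 2 * ∫ x in Ioi a, x ^ p * ‖h' x‖ ^ 2 := by
  have e1 : ∀ x : ℝ, 0 < x → x * x ^ (p - 2) = x ^ (p - 1) := by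
    intro x hx
    rw [show p - 1 = (p - 2) + 1 by ring, Real.rpow_add_one hx.ne', mul_comm]
  have e2 : ∀ x : ℝ, 0 < x → x ^ 2 * x ^ (p - 2) = x ^ p := by
    intro x hx
    rw [← Real.rpow_natCast, ← Real.rpow_add hx]
    simp
  have key := hardy_fin (q := p - 1) (w := fun x => x ^ (p - 2)) hab
    (fun x hx => by
      have hx0 : 0 < x := ha.trans_le hx.1
      have h1 := Real.hasDerivAt_rpow_const (x := x) (p := p - 1) (Or.inl hx0.ne')
      rw [show p - 1 - 1 = p - 2 by ring] at h1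
      refine h1.congr_of_eventuallyEq ?_
      filter_upwards [Ioi_mem_nhds hx0] with y hy using e1 y hy)
    (continuousOn_id.rpow_const fun x hx => Or.inl (ha.trans_le hx.1).ne')
    (fun x hx => Real.rpow_nonneg (ha.trans_le hx.1).le _)
    (fun x hx => hd x hx.1) (hc.mono Icc_subset_Ici_self)
  rw [e1 b (ha.trans_le hab), e1 a ha] at key
  refine key.trans ?_
  have e3 : ∫ x in a..b, x ^ 2 * x ^ (p - 2) * ‖h' x‖ ^ 2 = ∫ x in Ioc a b, x ^ p * ‖h' x‖ ^ 2 := by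
    rw [intervalIntegral.integral_of_le hab]
    refine setIntegral_congr_fun measurableSet_Ioc fun x hx => ?_
    simp only [e2 x (ha.trans hx.1)]
  rw [e3]
  have : ∫ x in Ioc a b, x ^ p * ‖h' x‖ ^ 2 ≤ ∫ x in Ioi a, x ^ p * ‖h' x‖ ^ 2 := by
    refine setIntegral_mono_set hi ?_ (Eventually.of_forall Ioc_subset_Ioi_self)
    refine (ae_restrict_iff' measurableSet_Ioi).mpr (Eventually.of_forall fun x hx => ?_)
    exact mul_nonneg (Real.rpow_nonneg (ha.trans hx).le _) (sq_nonneg _)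
  linarith

/-- Passage to the half-line. -/
theorem lim_Ioi {a L : ℝ} {f g : ℝ → ℝ} (hf : ContinuousOn f (Ici a)) (h0 : ∀ x, a ≤ x → 0 ≤ f x)
    (hg : Tendsto g atTop (𝓝 L)) (hb : ∀ b, a ≤ b → ∫ x in a..b, f x ≤ g b) :
    IntegrableOn f (Ioi a) ∧ ∫ x in Ioi a, f x ≤ L := by
  have hi : IntegrableOn f (Ioi a) := by
    refine integrableOn_Ioi_of_intervalIntegral_norm_bounded (L + 1) a (b := id) (l := atTop)
      (fun b => ?_) tendsto_id ?_
    · exact ((hf.mono Icc_subset_Ici_self).integrableOn_Icc (b := b)).mono_set Ioc_subset_Icc_self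
    · filter_upwards [eventually_ge_atTop a, hg.eventually (gt_mem_nhds (lt_add_one L))]
        with b hab hgb
      have : ∫ x in a..b, ‖f x‖ = ∫ x in a..b, f x := by
        refine intervalIntegral.integral_congr fun x hx => ?_
        rw [uIcc_of_le hab] at hx
        exact Real.norm_of_nonneg (h0 x hx.1)
      simp only [id]
      rw [this]
      exact (hb b hab).trans hgb.le
  refine ⟨hi, le_of_tendsto_of_tendsto (intervalIntegral_tendsto_integral_Ioi a hi tendsto_id) hg ?_⟩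
  filter_upwards [eventually_ge_atTop a] with b hab using hb b hab

theorem cont_aux {a p : ℝ} (ha : 0 < a) {h h' : ℝ → ℂ}
    (hd : ∀ x : ℝ, a ≤ x → HasDerivAt h (h' x) x) :
    ContinuousOn (fun x : ℝ => x ^ p * ‖h x‖ ^ 2) (Ici a) := by
  have hh : ContinuousOn h (Ici a) := fun x hx => (hd x hx).continuousAt.continuousWithinAt
  exact (continuousOn_id.rpow_const fun x hx => Or.inl (ha.trans_le hx).ne').mul (hh.norm.pow 2)

theorem hardy_right {a p : ℝ} (ha : 0 < a) (hp : 1 < p) {h h' : ℝ → ℂ}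
    (hd : ∀ x : ℝ, a ≤ x → HasDerivAt h (h' x) x) (hc : ContinuousOn h' (Ici a))
    (hi : IntegrableOn (fun x : ℝ => x ^ p * ‖h' x‖ ^ 2) (Ioi a))
    (ht : Tendsto (fun x : ℝ => x ^ (p - 1) * ‖h x‖ ^ 2) atTop (𝓝 0)) :
    IntegrableOn (fun x : ℝ => x ^ (p - 2) * ‖h x‖ ^ 2) (Ioi a) ∧
      ∫ x in Ioi a, x ^ (p - 2) * ‖h x‖ ^ 2
        ≤ 4 / (p - 1) ^ 2 * ∫ x in Ioi a, x ^ p * ‖h' x‖ ^ 2 := by
  have hq : 0 < p - 1 := by linarith
  refine lim_Ioi (g := fun b => 2 / (p - 1) * (b ^ (p - 1) * ‖h b‖ ^ 2)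
    + 4 / (p - 1) ^ 2 * ∫ x in Ioi a, x ^ p * ‖h' x‖ ^ 2) (cont_aux ha hd)
    (fun x hx => mul_nonneg (Real.rpow_nonneg (ha.trans_le hx).le _) (sq_nonneg _)) ?_ ?_
  · simpa using (ht.const_mul (2 / (p - 1))).add_const
      (4 / (p - 1) ^ 2 * ∫ x in Ioi a, x ^ p * ‖h' x‖ ^ 2)
  · intro b hab
    have key := hardy_rpow ha hd hc hi hab
    have h0 : 0 ≤ a ^ (p - 1) * ‖h a‖ ^ 2 := mul_nonneg (Real.rpow_nonneg ha.le _) (sq_nonneg _)
    have hq2 : 0 < (p - 1) ^ 2 / 2 := by positivity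
    refine le_of_mul_le_mul_left (key.trans ?_) hq2
    have : (p - 1) ^ 2 / 2 * (2 / (p - 1) * (b ^ (p - 1) * ‖h b‖ ^ 2)
        + 4 / (p - 1) ^ 2 * ∫ x in Ioi a, x ^ p * ‖h' x‖ ^ 2)
        = (p - 1) * (b ^ (p - 1) * ‖h b‖ ^ 2) + 2 * ∫ x in Ioi a, x ^ p * ‖h' x‖ ^ 2 := by
      field_simp
      ring
    rw [this]
    nlinarith [mul_nonneg hq.le h0]

theorem hardy_left {a p : ℝ} (ha : 0 < a) (hp : p < 1) {h h' : ℝ → ℂ}
    (hd : ∀ x : ℝ, a ≤ x → HasDerivAt h (h' x) x) (hc : ContinuousOn h' (Ici a))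
    (hi : IntegrableOn (fun x : ℝ => x ^ p * ‖h' x‖ ^ 2) (Ioi a)) :
    IntegrableOn (fun x : ℝ => x ^ (p - 2) * ‖h x‖ ^ 2) (Ioi a) ∧
      ∫ x in Ioi a, x ^ (p - 2) * ‖h x‖ ^ 2 ≤ 4 / (1 - p) ^ 2 * (∫ x in Ioi a, x ^ p * ‖h' x‖ ^ 2)
        + 2 / (1 - p) * (a ^ (p - 1) * ‖h a‖ ^ 2) := by
  have hq : 0 < 1 - p := by linarith
  refine lim_Ioi (cont_aux ha hd)
    (fun x hx => mul_nonneg (Real.rpow_nonneg (ha.trans_le hx).le _) (sq_nonneg _))
    tendsto_const_nhds ?_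
  intro b hab
  have key := hardy_rpow ha hd hc hi hab
  have h0 : 0 ≤ b ^ (p - 1) * ‖h b‖ ^ 2 :=
    mul_nonneg (Real.rpow_nonneg (ha.trans_le hab).le _) (sq_nonneg _)
  have hq2 : 0 < (p - 1) ^ 2 / 2 := by nlinarith [sq_pos_of_pos hq]
  refine le_of_mul_le_mul_left (key.trans ?_) hq2
  have : (p - 1) ^ 2 / 2 * (4 / (1 - p) ^ 2 * (∫ x in Ioi a, x ^ p * ‖h' x‖ ^ 2)
        + 2 / (1 - p) * (a ^ (p - 1) * ‖h a‖ ^ 2))
      = (1 - p) * (a ^ (p - 1) * ‖h a‖ ^ 2) + 2 * ∫ x in Ioi a, x ^ p * ‖h' x‖ ^ 2 := by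
    field_simp
    ring
  rw [this]
  nlinarith [mul_nonneg hq.le h0]

theorem hardy_ball {r₀ : ℝ} (hr : 0 ≤ r₀) {h h' : ℝ → ℂ}
    (hd : ∀ x ∈ Icc 0 r₀, HasDerivAt h (h' x) x) (hc : ContinuousOn h' (Icc 0 r₀)) :
    ∫ x in (0 : ℝ)..r₀, x ^ 9 * ‖h x‖ ^ 2
      ≤ r₀ ^ 10 * ‖h r₀‖ ^ 2 / 5 + (∫ x in (0 : ℝ)..r₀, x ^ 11 * ‖h' x‖ ^ 2) / 25 := by
  have key := hardy_fin (q := 10) (w := fun x => x ^ 9) hr
    (fun x _ => by
      have h1 := hasDerivAt_pow 10 x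
      refine (h1.congr_of_eventuallyEq (Eventually.of_forall fun y => ?_)).congr_deriv ?_
      · simp only; ring
      · norm_num)
    (continuousOn_id.pow 9) (fun x hx => pow_nonneg hx.1 9) hd hc
  have e : ∫ x in (0 : ℝ)..r₀, x ^ 2 * x ^ 9 * ‖h' x‖ ^ 2
      = ∫ x in (0 : ℝ)..r₀, x ^ 11 * ‖h' x‖ ^ 2 := by
    congr 1
    funext x
    ring
  rw [e] at key
  have e2 : r₀ * r₀ ^ 9 = r₀ ^ 10 := by ring
  rw [e2] at key
  nlinarith

end Vale.Agent.P139Z.OCalc
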