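import Vale.Agent.P139Z.ODefs

/-! Calculus for the operator `Mop`. -/

open Set Filter Topology MeasureTheory Complex
open scoped NNReal ENNReal ComplexConjugate ContDiff

namespace Vale.Agent.P139Z.OCalc

theorem cda_deriv {n : ℕ} {F : ℝ → ℂ} {ρ : ℝ} (hF : ContDiffAt ℝ (n + 1 : ℕ) F ρ) :
    ContDiffAt ℝ n (deriv F) ρ :=
  hF.derivWithin (by norm_cast)

theorem cda_iter {n : ℕ} (j : ℕ) {F : ℝ → ℂ} {ρ : ℝ} (hF : ContDiffAt ℝ (n + j : ℕ) F ρ) :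
    ContDiffAt ℝ n (iteratedDeriv j F) ρ := by
  induction j generalizing F with
  | zero => simpa using hF
  | succ j ih =>
    rw [iteratedDeriv_succ']
    exact ih (cda_deriv hF)

theorem iter2 (F : ℝ → ℂ) : iteratedDeriv 2 F = deriv (deriv F) := by
  rw [iteratedDeriv_succ, iteratedDeriv_one]

theorem hd1 {F : ℝ → ℂ} {ρ : ℝ} (hF : ContDiffAt ℝ 2 F ρ) : HasDerivAt F (deriv F ρ) ρ :=
  (hF.differentiableAt (by norm_num)).hasDerivAt

theorem hd2 {F : ℝ → ℂ} {ρ : ℝ} (hF : ContDiffAt ℝ 2 F ρ) :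
    HasDerivAt (deriv F) (iteratedDeriv 2 F ρ) ρ := by
  rw [iter2]
  have h : ContDiffAt ℝ (1 : ℕ) (deriv F) ρ := cda_deriv (n := 1) hF
  exact (h.differentiableAt (by norm_num)).hasDerivAt

theorem hdo (ρ : ℝ) : HasDerivAt (fun x : ℝ => (x : ℂ)) 1 ρ := by
  simpa using (hasDerivAt_id ρ).ofReal_comp

theorem hasDerivAt_Mop (A : ℂ) (B : ℕ) {F : ℝ → ℂ} {ρ : ℝ} (hF : ContDiffAt ℝ 3 F ρ) :
    HasDerivAt (Mop A B F) (Mop (A + 1) (B + 1) (deriv F) ρ) ρ := by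
  have hF2 : ContDiffAt ℝ 2 F ρ := hF.of_le (by norm_num)
  have hD : ContDiffAt ℝ 2 (deriv F) ρ := cda_deriv (n := 2) hF
  have h1 := hd1 hF2
  have h2 := hd2 hF2
  have h3 : HasDerivAt (iteratedDeriv 2 F) (iteratedDeriv 2 (deriv F) ρ) ρ := by
    rw [iter2 F]; exact hd2 hD
  have h := (((((hdo ρ).const_mul 4).mul h3).add
    ((((hdo ρ).const_mul I).const_add (4 * (B : ℂ))).mul h2)).add (h1.const_mul (I * A)))
  have e : Mop A B F = fun x : ℝ => 4 * (x : ℂ) * iteratedDeriv 2 F x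
      + (4 * (B : ℂ) + I * x) * deriv F x + I * A * F x := rfl
  rw [e]
  refine HasDerivAt.congr_deriv h ?_
  simp only [Mop, iter2 F]
  push_cast
  ring

theorem Mop_add (A : ℂ) (B : ℕ) {F H : ℝ → ℂ} {ρ : ℝ} (hF : ContDiffAt ℝ 2 F ρ)
    (hH : ContDiffAt ℝ 2 H ρ) : Mop A B (fun x => F x + H x) ρ = Mop A B F ρ + Mop A B H ρ := by
  have h1 : deriv (fun x => F x + H x) ρ = deriv F ρ + deriv H ρ :=
    ((hd1 hF).add (hd1 hH)).deriv
  have h2 : iteratedDeriv 2 (fun x => F x + H x) ρ = iteratedDeriv 2 F ρ + iteratedDeriv 2 H ρ :=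
    iteratedDeriv_fun_add (n := 2) hF hH
  simp only [Mop, h1, h2]
  ring

theorem Mop_sub (A : ℂ) (B : ℕ) {F H : ℝ → ℂ} {ρ : ℝ} (hF : ContDiffAt ℝ 2 F ρ)
    (hH : ContDiffAt ℝ 2 H ρ) : Mop A B (fun x => F x - H x) ρ = Mop A B F ρ - Mop A B H ρ := by
  have h1 : deriv (fun x => F x - H x) ρ = deriv F ρ - deriv H ρ :=
    ((hd1 hF).sub (hd1 hH)).deriv
  have h2 : iteratedDeriv 2 (fun x => F x - H x) ρ = iteratedDeriv 2 F ρ - iteratedDeriv 2 H ρ :=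
    iteratedDeriv_fun_sub (n := 2) hF hH
  simp only [Mop, h1, h2]
  ring

theorem Mop_const_mul (A : ℂ) (B : ℕ) (c : ℂ) (F : ℝ → ℂ) (ρ : ℝ) :
    Mop A B (fun x => c * F x) ρ = c * Mop A B F ρ := by
  simp only [Mop, iteratedDeriv_const_mul_field, deriv_const_mul_field]
  ring

theorem Mop_congr (A : ℂ) (B : ℕ) {F H : ℝ → ℂ} {ρ : ℝ} (h : F =ᶠ[𝓝 ρ] H) :
    Mop A B F ρ = Mop A B H ρ := by
  simp only [Mop, h.iteratedDeriv_eq 2, h.deriv_eq, h.eq_of_nhds]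

theorem iteratedDeriv_Mop (A : ℂ) (B j : ℕ) {F : ℝ → ℂ} {ρ : ℝ}
    (hF : ContDiffAt ℝ (j + 2 : ℕ) F ρ) :
    iteratedDeriv j (Mop A B F) ρ = Mop (A + j) (B + j) (iteratedDeriv j F) ρ := by
  induction j generalizing A B F with
  | zero => simp
  | succ j ih =>
    rw [iteratedDeriv_succ', iteratedDeriv_succ']
    have hev : deriv (Mop A B F) =ᶠ[𝓝 ρ] Mop (A + 1) (B + 1) (deriv F) := by
      have h3 : ContDiffAt ℝ 3 F ρ := hF.of_le (by norm_cast; omega)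
      filter_upwards [h3.eventually (by simp)] with x hx
      exact (hasDerivAt_Mop A B hx).deriv
    rw [hev.iteratedDeriv_eq j, ih (A + 1) (B + 1) (cda_deriv (n := j + 2) hF)]
    congr 1
    · push_cast; ring
    · ring

theorem Mop_level (A : ℂ) (B : ℕ) {F : ℝ → ℂ} {ρ : ℝ} (hF : ContDiffAt ℝ 3 F ρ) :
    Mop (A + 1) B (fun x => A * F x + x * deriv F x) ρ
      = (A + 1) * Mop A B F ρ + ρ * deriv (Mop A B F) ρ := by
  rw [(hasDerivAt_Mop A B hF).deriv]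
  have hF2 : ContDiffAt ℝ 2 F ρ := hF.of_le (by norm_num)
  have hD : ContDiffAt ℝ 2 (deriv F) ρ := cda_deriv (n := 2) hF
  have key : ∀ x : ℝ, ContDiffAt ℝ 2 F x → deriv (fun x : ℝ => A * F x + x * deriv F x) x
      = (A + 1) * deriv F x + x * iteratedDeriv 2 F x := by
    intro x hx
    refine (((hd1 hx).const_mul A).add ((hdo x).mul (hd2 hx))).deriv.trans ?_
    ring
  have hev : deriv (fun x : ℝ => A * F x + x * deriv F x) =ᶠ[𝓝 ρ]
      fun x : ℝ => (A + 1) * deriv F x + x * iteratedDeriv 2 F x := by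
    filter_upwards [hF2.eventually (by simp)] with x hx using key x hx
  have h3 : HasDerivAt (iteratedDeriv 2 F) (iteratedDeriv 2 (deriv F) ρ) ρ := by
    rw [iter2 F]; exact hd2 hD
  have h2 : iteratedDeriv 2 (fun x : ℝ => A * F x + x * deriv F x) ρ
      = (A + 2) * iteratedDeriv 2 F ρ + ρ * iteratedDeriv 2 (deriv F) ρ := by
    rw [iter2, hev.deriv_eq]
    refine (((hd2 hF2).const_mul (A + 1)).add ((hdo ρ).mul h3)).deriv.trans ?_
    ring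
  simp only [Mop, h2, key ρ hF2, ← iter2 F]
  push_cast
  ring

theorem hasDerivAt_mass (A : ℂ) {B : ℕ} (hB : 1 ≤ B) {F : ℝ → ℂ} {ρ : ℝ}
    (hF : ContDiffAt ℝ 2 F ρ) :
    HasDerivAt (fun x : ℝ => 4 * x ^ B * (conj (F x) * deriv F x).im + x ^ B * ‖F x‖ ^ 2 / 2)
      (ρ ^ (B - 1) * (conj (F ρ) * Mop A B F ρ).im
        - (A.re - (B : ℝ) / 2) * ρ ^ (B - 1) * ‖F ρ‖ ^ 2) ρ := by
  obtain ⟨b, rfl⟩ : ∃ b, B = b + 1 := ⟨B - 1, by omega⟩
  have h1 := hd1 hF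
  have h2 := hd2 hF
  have hc : HasDerivAt (fun x => conj (F x)) (conj (deriv F ρ)) ρ := by
    simpa using h1.star
  have him : HasDerivAt (fun x => (conj (F x) * deriv F x).im)
      (conj (deriv F ρ) * deriv F ρ + conj (F ρ) * iteratedDeriv 2 F ρ).im ρ :=
    Complex.imCLM.hasFDerivAt.comp_hasDerivAt ρ (hc.mul h2)
  have hn : HasDerivAt (fun x => ‖F x‖ ^ 2) (2 * (conj (F ρ) * deriv F ρ).re) ρ := by
    have h := h1.norm_sq
    convert h using 1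
    simp [Complex.inner]
    ring
  have hp := hasDerivAt_pow (b + 1) ρ
  have h := (((hp.const_mul 4).mul him).add ((hp.mul hn).div_const 2))
  refine HasDerivAt.congr_deriv h ?_
  simp only [Mop, Complex.sq_norm, Complex.normSq_apply, Nat.add_sub_cancel]
  simp
  ring

theorem hasDerivAt_wron (A : ℂ) {B : ℕ} (hB : 1 ≤ B) {F U : ℝ → ℂ} {ρ : ℝ}
    (hF : ContDiffAt ℝ 2 F ρ) (hU : ContDiffAt ℝ 2 U ρ) :
    HasDerivAt (fun x : ℝ => (x : ℂ) ^ B * cexp (I * x / 4) * (deriv F x * U x - F x * deriv U x))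
      ((ρ : ℂ) ^ (B - 1) * cexp (I * ρ / 4) / 4 * (U ρ * Mop A B F ρ - F ρ * Mop A B U ρ)) ρ := by
  obtain ⟨b, rfl⟩ : ∃ b, B = b + 1 := ⟨B - 1, by omega⟩
  have hp := (hdo ρ).pow (b + 1)
  have he := (((hdo ρ).const_mul I).div_const 4).cexp
  have h := (hp.mul he).mul (((hd2 hF).mul (hd1 hU)).sub ((hd1 hF).mul (hd2 hU)))
  refine HasDerivAt.congr_deriv h ?_
  simp only [Mop, Nat.add_sub_cancel, Pi.pow_apply, Pi.mul_apply, Pi.sub_apply]
  push_cast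
  ring

end Vale.Agent.P139Z.OCalc
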