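import Vale.Agent.P139Z.OCalc.Mop

/-! Algebra of symbols on the half-line. -/

open Set Filter Topology MeasureTheory Complex
open scoped NNReal ENNReal ComplexConjugate ContDiff

namespace Vale.Agent.P139Z.OCalc

variable {M M' : ℝ} {F H : ℝ → ℂ}

theorem cda_of_on (hF : ContDiffOn ℝ ∞ F (Ioi 0)) (n : ℕ) {ρ : ℝ} (hρ : 0 < ρ) :
    ContDiffAt ℝ n F ρ :=
  (hF.contDiffAt (Ioi_mem_nhds hρ)).of_le (by exact_mod_cast le_top)

theorem cdo_iter (hF : ContDiffOn ℝ ∞ F (Ioi 0)) (j : ℕ) :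
    ContDiffOn ℝ ∞ (iteratedDeriv j F) (Ioi 0) := by
  induction j generalizing F with
  | zero => simpa using hF
  | succ j ih =>
    rw [iteratedDeriv_succ']
    exact ih (hF.deriv_of_isOpen isOpen_Ioi (by simp))

theorem s_bd' (h : Symb M F) (j : ℕ) :
    ∃ C : ℝ, 0 ≤ C ∧ ∀ ρ : ℝ, 1 ≤ ρ → ‖iteratedDeriv j F ρ‖ ≤ C * ρ ^ (M - j) := by
  obtain ⟨C, hC⟩ := h.bd j
  refine ⟨max C 0, le_max_right _ _, fun ρ hρ => (hC ρ hρ).trans ?_⟩
  exact mul_le_mul_of_nonneg_right (le_max_left _ _) (Real.rpow_nonneg (by linarith) _)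

theorem s_zero (M : ℝ) : Symb M (fun _ => 0) :=
  ⟨contDiffOn_const, fun j => ⟨0, fun ρ _ => by simp⟩⟩

theorem s_const (c : ℂ) : Symb 0 (fun _ => c) := by
  refine ⟨contDiffOn_const, fun j => ⟨‖c‖, fun ρ hρ => ?_⟩⟩
  rw [iteratedDeriv_const]
  split_ifs with hj
  · subst hj; simp
  · simp only [norm_zero]
    exact mul_nonneg (norm_nonneg _) (Real.rpow_nonneg (by linarith) _)

theorem s_mono (h : Symb M F) (hM : M ≤ M') : Symb M' F := by
  refine ⟨h.smooth, fun j => ?_⟩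
  obtain ⟨C, hC0, hC⟩ := s_bd' h j
  refine ⟨C, fun ρ hρ => (hC ρ hρ).trans ?_⟩
  exact mul_le_mul_of_nonneg_left (Real.rpow_le_rpow_of_exponent_le hρ (by linarith)) hC0

theorem s_congr (h : Symb M F) (e : EqOn F H (Ioi 0)) : Symb M H := by
  refine ⟨h.smooth.congr fun x hx => (e hx).symm, fun j => ?_⟩
  obtain ⟨C, hC⟩ := h.bd j
  refine ⟨C, fun ρ hρ => ?_⟩
  rw [← e.iteratedDeriv_of_isOpen isOpen_Ioi j (show (0 : ℝ) < ρ by linarith)]
  exact hC ρ hρ

theorem s_add (h : Symb M F) (h' : Symb M H) : Symb M (fun x => F x + H x) := by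
  refine ⟨h.smooth.add h'.smooth, fun j => ?_⟩
  obtain ⟨C, hC⟩ := h.bd j
  obtain ⟨C', hC'⟩ := h'.bd j
  refine ⟨C + C', fun ρ hρ => ?_⟩
  have hρ0 : 0 < ρ := by linarith
  rw [iteratedDeriv_fun_add (cda_of_on h.smooth j hρ0) (cda_of_on h'.smooth j hρ0), add_mul]
  exact (norm_add_le _ _).trans (add_le_add (hC ρ hρ) (hC' ρ hρ))

theorem s_const_mul (h : Symb M F) (c : ℂ) : Symb M (fun x => c * F x) := by
  refine ⟨contDiffOn_const.mul h.smooth, fun j => ?_⟩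
  obtain ⟨C, hC⟩ := h.bd j
  refine ⟨‖c‖ * C, fun ρ hρ => ?_⟩
  rw [iteratedDeriv_const_mul_field, norm_mul, mul_assoc]
  exact mul_le_mul_of_nonneg_left (hC ρ hρ) (norm_nonneg _)

theorem s_sub (h : Symb M F) (h' : Symb M H) : Symb M (fun x => F x - H x) :=
  s_congr (s_add h (s_const_mul h' (-1))) fun x _ => by ring

theorem s_mul (h : Symb M F) (h' : Symb M' H) : Symb (M + M') (fun x => F x * H x) := by
  refine ⟨h.smooth.mul h'.smooth, fun j => ?_⟩
  choose C hC0 hC using s_bd' h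
  choose C' hC0' hC' using s_bd' h'
  refine ⟨∑ i ∈ Finset.range (j + 1), (j.choose i : ℝ) * C i * C' (j - i), fun ρ hρ => ?_⟩
  have hρ0 : 0 < ρ := by linarith
  rw [iteratedDeriv_fun_mul (cda_of_on h.smooth j hρ0) (cda_of_on h'.smooth j hρ0),
    Finset.sum_mul]
  refine (norm_sum_le _ _).trans (Finset.sum_le_sum fun i hi => ?_)
  have hij : i ≤ j := Nat.lt_succ_iff.mp (Finset.mem_range.mp hi)
  rw [norm_mul, norm_mul, Complex.norm_natCast]
  have e : ρ ^ (M + M' - j) = ρ ^ (M - i) * ρ ^ (M' - (j - i : ℕ)) := by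
    rw [← Real.rpow_add hρ0, Nat.cast_sub hij]
    congr 1
    ring
  rw [e]
  calc (j.choose i : ℝ) * ‖iteratedDeriv i F ρ‖ * ‖iteratedDeriv (j - i) H ρ‖
      ≤ (j.choose i : ℝ) * (C i * ρ ^ (M - i)) * (C' (j - i) * ρ ^ (M' - (j - i : ℕ))) := by
        have := hC0 i
        gcongr
        · exact hC i ρ hρ
        · exact hC' (j - i) ρ hρ
    _ = _ := by ring

theorem hasDerivAt_cpow' (c : ℂ) {x : ℝ} (hx : 0 < x) :
    HasDerivAt (fun x : ℝ => (x : ℂ) ^ c) (c * (x : ℂ) ^ (c - 1)) x := by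
  have h := (hasDerivAt_id (x : ℂ)).cpow_const (c := c) (Or.inl (by simpa using hx))
  simpa using h.comp_ofReal

theorem iter_cpow (j : ℕ) (c : ℂ) : ∃ a : ℂ, ∀ x : ℝ, 0 < x →
    iteratedDeriv j (fun x : ℝ => (x : ℂ) ^ c) x = a * (x : ℂ) ^ (c - j) := by
  induction j generalizing c with
  | zero => exact ⟨1, fun x _ => by simp⟩
  | succ j ih =>
    obtain ⟨a, ha⟩ := ih (c - 1)
    refine ⟨c * a, fun x hx => ?_⟩
    have e : EqOn (deriv fun x : ℝ => (x : ℂ) ^ c) (fun x : ℝ => c * (x : ℂ) ^ (c - 1))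
        (Ioi 0) := fun y hy => (hasDerivAt_cpow' c hy).deriv
    rw [iteratedDeriv_succ', e.iteratedDeriv_of_isOpen isOpen_Ioi j hx,
      iteratedDeriv_const_mul_field, ha x hx, mul_assoc]
    congr 3
    push_cast
    ring

theorem s_cpow (c : ℂ) : Symb c.re (fun x : ℝ => (x : ℂ) ^ c) := by
  refine ⟨?_, fun j => ?_⟩
  · intro x hx
    have h1 : ContDiffAt ℂ ∞ (fun z : ℂ => z ^ c) (x : ℂ) :=
      (analyticAt_id.cpow analyticAt_const (Or.inl (by simpa using hx))).contDiffAt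
    exact ((h1.restrict_scalars ℝ).comp x Complex.ofRealCLM.contDiff.contDiffAt).contDiffWithinAt
  · obtain ⟨a, ha⟩ := iter_cpow j c
    refine ⟨‖a‖, fun ρ hρ => ?_⟩
    have hρ0 : 0 < ρ := by linarith
    rw [ha ρ hρ0, norm_mul, Complex.norm_cpow_eq_rpow_re_of_pos hρ0]
    simp

theorem s_id : Symb 1 (fun x : ℝ => (x : ℂ)) := by
  simpa using s_cpow 1

theorem s_id_mul (h : Symb M F) : Symb (M + 1) (fun x => x * F x) := by
  rw [add_comm]
  exact s_mul s_id h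

theorem iter_cj (j : ℕ) (F : ℝ → ℂ) :
    iteratedDeriv j (fun x => conj (F x)) = fun x => conj (iteratedDeriv j F x) := by
  induction j with
  | zero => simp
  | succ j ih =>
    rw [iteratedDeriv_succ, iteratedDeriv_succ, ih]
    funext x
    exact deriv.star

theorem s_cj (h : Symb M F) : Symb M (fun x => conj (F x)) := by
  refine ⟨Complex.conjCLE.contDiff.comp_contDiffOn h.smooth, fun j => ?_⟩
  obtain ⟨C, hC⟩ := h.bd j
  refine ⟨C, fun ρ hρ => ?_⟩
  rw [iter_cj]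
  simpa using hC ρ hρ

theorem s_der (h : Symb M F) : Symb (M - 1) (deriv F) := by
  refine ⟨h.smooth.deriv_of_isOpen isOpen_Ioi (by simp), fun j => ?_⟩
  obtain ⟨C, hC⟩ := h.bd (j + 1)
  refine ⟨C, fun ρ hρ => ?_⟩
  rw [← iteratedDeriv_succ']
  convert hC ρ hρ using 3
  push_cast
  ring

theorem s_iter (h : Symb M F) (j : ℕ) : Symb (M - j) (iteratedDeriv j F) := by
  induction j with
  | zero => simpa using h
  | succ j ih =>
    rw [iteratedDeriv_succ]
    convert s_der ih using 1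
    push_cast
    ring

theorem s_of_eventually (hF : ContDiffOn ℝ ∞ F (Ioi 0)) (ρ₃ : ℝ)
    (h : ∀ j : ℕ, ∃ C : ℝ, ∀ ρ : ℝ, ρ₃ ≤ ρ → 1 ≤ ρ →
      ‖iteratedDeriv j F ρ‖ ≤ C * ρ ^ (M - j)) : Symb M F := by
  refine ⟨hF, fun j => ?_⟩
  obtain ⟨C, hC⟩ := h j
  have hsub : Icc (1 : ℝ) ρ₃ ⊆ Ioi 0 := fun x hx => lt_of_lt_of_le one_pos hx.1
  have hc : ContinuousOn (fun ρ : ℝ => ‖iteratedDeriv j F ρ‖ / ρ ^ (M - j)) (Icc 1 ρ₃) := by
    refine ((cdo_iter hF j).continuousOn.mono hsub).norm.div ?_ ?_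
    · exact continuousOn_id.rpow_const fun x hx => Or.inl (ne_of_gt (hsub hx))
    · exact fun x hx => (Real.rpow_pos_of_pos (hsub hx) _).ne'
  obtain ⟨K, hK⟩ := isCompact_Icc.bddAbove_image hc
  refine ⟨max C K, fun ρ hρ => ?_⟩
  have hp : 0 < ρ ^ (M - j) := Real.rpow_pos_of_pos (by linarith) _
  rcases le_total ρ₃ ρ with h3 | h3
  · exact (hC ρ h3 hρ).trans (mul_le_mul_of_nonneg_right (le_max_left _ _) hp.le)
  · have := hK ⟨ρ, ⟨hρ, h3⟩, rfl⟩
    rw [div_le_iff₀ hp] at this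
    exact this.trans (mul_le_mul_of_nonneg_right (le_max_right _ _) hp.le)

theorem s_of_deriv (hF : ContDiffOn ℝ ∞ F (Ioi 0)) (h : Symb (M - 1) (deriv F))
    (hM : 0 < M) : Symb M F := by
  refine ⟨hF, fun j => ?_⟩
  rcases j with _ | j
  · obtain ⟨C, hC0, hC⟩ := s_bd' h 0
    refine ⟨‖F 1‖ + C / M, fun ρ hρ => ?_⟩
    have hd : ∀ x : ℝ, 0 < x → HasDerivAt F (deriv F x) x := fun x hx =>
      ((cda_of_on hF 1 hx).differentiableAt (by simp)).hasDerivAt
    have hB : ∀ x : ℝ, 0 < x →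
        HasDerivAt (fun x : ℝ => ‖F 1‖ + C / M * x ^ M) (C * x ^ (M - 1)) x := by
      intro x hx
      refine (((Real.hasDerivAt_rpow_const (p := M) (Or.inl hx.ne')).const_mul
        (C / M)).const_add ‖F 1‖).congr_deriv ?_
      field_simp
    have key := image_norm_le_of_norm_deriv_right_le_deriv_boundary' (f := F) (f' := deriv F)
      (a := 1) (b := ρ) (B := fun x : ℝ => ‖F 1‖ + C / M * x ^ M)
      (B' := fun x : ℝ => C * x ^ (M - 1))
      (fun x hx => (hd x (by linarith [hx.1])).continuousAt.continuousWithinAt)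
      (fun x hx => (hd x (by linarith [hx.1])).hasDerivWithinAt)
      (by have : 0 ≤ C / M := by positivity
          simpa using this)
      (fun x hx => (hB x (by linarith [hx.1])).continuousAt.continuousWithinAt)
      (fun x hx => (hB x (by linarith [hx.1])).hasDerivWithinAt)
      (fun x hx => by simpa using hC x hx.1) (x := ρ) ⟨hρ, le_rfl⟩
    have h1 : 1 ≤ ρ ^ M := Real.one_le_rpow hρ hM.le
    simp only [iteratedDeriv_zero, Nat.cast_zero, sub_zero]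
    nlinarith [norm_nonneg (F 1)]
  · obtain ⟨C, hC⟩ := h.bd j
    refine ⟨C, fun ρ hρ => ?_⟩
    rw [iteratedDeriv_succ']
    convert hC ρ hρ using 3
    push_cast
    ring

end Vale.Agent.P139Z.OCalc
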